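import Vale.Agent.Lib.P098D3.Ext
import Vale.Agent.Lib.P098D3.Flat
import Vale.Agent.Lib.P098D3.OneFlat

/-!
# P098: a lower bound for the critical dimension of the one-phase problem

A nonzero nonflat one-homogeneous minimizer (or stable solution) of the one-phase Bernoulli
problem in `ℝ^d` which is smooth up to the free boundary away from the origin can only exist
in dimension `d ≥ 6`.
-/

open MeasureTheory Set Filter Topology
open scoped ContDiff ENNReal Gradient

open Laplacian

namespace Vale.Agent.Results.P098.CriticalDimension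

/-- The space `ℝ^d`. -/
abbrev E (d : ℕ) := EuclideanSpace ℝ (Fin d)

/-- The one-phase energy `J(v; B) = ∫_B |∇v|² dx + |{v > 0} ∩ B|`. -/
noncomputable def J {d : ℕ} (v : E d → ℝ) (B : Set (E d)) : ℝ≥0∞ :=
  (∫⁻ x in B, ‖∇ v x‖ₑ ^ 2) + volume (B ∩ {x | 0 < v x})

/-- `u` minimizes `J` in every ball `B` centred at the origin among the nonnegative locally
Lipschitz `v` such that the support of `v - u` is a compact subset of (the open ball) `B`. -/
def Minimizer {d : ℕ} (u : E d → ℝ) : Prop :=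
  ∀ (R : ℝ) (v : E d → ℝ), LocallyLipschitz v → (∀ x, 0 ≤ v x) →
    tsupport (fun x => v x - u x) ⊆ Metric.ball 0 R →
      J u (Metric.ball 0 R) ≤ J v (Metric.ball 0 R)

/-- The function `|∇u|² / 2`. -/
noncomputable def halfGradSq {d : ℕ} (u : E d → ℝ) (x : E d) : ℝ := ‖∇ u x‖ ^ 2 / 2

/-- `u` is a stable solution: `Δu = 0` in `{u > 0}`; `|∇u| = 1` on the free boundary `∂{u > 0}`
away from the origin, as a limit from inside; and `∫_{∂{u>0}} H φ² ≤ ∫_{u>0} |∇φ|²` for all smooth
nonnegative `φ` with compact support not containing the origin.  Here `H = -D²u(∇u, ∇u)` is the mean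
curvature of the free boundary and the left-hand side is written, by the divergence theorem,
as `∫_{u>0} div (φ² ∇(|∇u|²/2))`. -/
structure StableSolution {d : ℕ} (u : E d → ℝ) : Prop where
  harmonic : ∀ x, 0 < u x → Δ u x = 0
  free_boundary : ∀ x ∈ frontier {y | 0 < u y}, x ≠ 0 →
    Tendsto (fun y => ‖∇ u y‖) (𝓝[{y | 0 < u y}] x) (𝓝 1)
  stable : ∀ φ : E d → ℝ, ContDiff ℝ ∞ φ → (∀ x, 0 ≤ φ x) → HasCompactSupport φ →
    (0 : E d) ∉ tsupport φ →
    ∫ x in {x | 0 < u x}, (φ x ^ 2 * Δ (halfGradSq u) x +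
        2 * φ x * inner ℝ (∇ φ x) (∇ (halfGradSq u) x)) ≤
      ∫ x in {x | 0 < u x}, ‖∇ φ x‖ ^ 2

/-- Let `u : ℝ^d → ℝ` be continuous, nonnegative, one-homogeneous, and smooth up to the free
boundary away from the origin (near each `x ≠ 0` it coincides on `{u > 0}` with a smooth function
`w`).  If `u` is a minimizer, or `d ≥ 2` and `u` is a stable solution, and `u` is neither zero nor
flat, then `d ≥ 6`. -/
theorem result (d : ℕ) (u : E d → ℝ) (hc : Continuous u) (hn : ∀ x, 0 ≤ u x)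
    (hh : ∀ r : ℝ, 0 < r → ∀ x, u (r • x) = r * u x)
    (hs : ∀ x : E d, x ≠ 0 → ∃ w : E d → ℝ, ContDiff ℝ ∞ w ∧ ∀ᶠ y in 𝓝 x, 0 < u y → u y = w y)
    (hu : Minimizer u ∨ 2 ≤ d ∧ StableSolution u) (h0 : ∃ x, u x ≠ 0)
    (hflat : ¬ ∃ e : E d, ‖e‖ = 1 ∧ ∀ x, u x = max (inner ℝ e x) 0) : 6 ≤ d := by
  by_contra hd
  have hd5 : d ≤ 5 := by omega
  obtain ⟨w, hw⟩ := P098D3.exists_ext hc hn hh hs
  have key : (∀ x, u x = 0) ∨ ∃ e : E d, ‖e‖ = 1 ∧ ∀ x, u x = max (inner ℝ e x) 0 := by
    rcases hu with hm | ⟨hd2, hst⟩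
    · refine P098D3.min_flat hd5 hw fun R v hv hv0 hsv => ?_
      have h1 := hm R v hv hv0 hsv
      unfold J at h1
      rw [P098D3.energy_eq' hc Metric.isOpen_ball.measurableSet,
        P098D3.energy_eq' hv.continuous Metric.isOpen_ball.measurableSet] at h1
      exact h1
    · have h1 := P098D3.smoothCone_of hw hst.harmonic hst.free_boundary
      exact P098D3.stab_flat hd2 hd5 h1 (P098D3.stab_of h1 hst.stable)
  rcases key with h | h
  · obtain ⟨x, hx⟩ := h0
    exact hx (h x)
  · exact hflat h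

end Vale.Agent.Results.P098.CriticalDimension
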