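import Vale.Agent.Lib.P098.Var.Res
import Vale.Agent.Lib.P098.Cert.Bx5

/-!
# P098: the one-phase problem in dimension five

One-homogeneous minimizers (and, more generally, one-homogeneous stable solutions) of the
one-phase Bernoulli problem in `ℝ^5` which are smooth up to the free boundary away from the origin
are flat.
-/

open MeasureTheory Set Filter Topology
open scoped ContDiff ENNReal

open Vale.Agent.P098 (k5Flat K5_hyp K5_good res_of_cert)

namespace Vale.Agent.Results.P098.DimFive

/-- The one-phase Bernoulli energy `J(v; B) = ∫_B (|∇v|² + 1_{v > 0}) dx`. -/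
noncomputable def J {d : ℕ} (v : EuclideanSpace ℝ (Fin d) → ℝ)
    (B : Set (EuclideanSpace ℝ (Fin d))) : ℝ≥0∞ :=
  ∫⁻ x in B, (ENNReal.ofReal (‖fderiv ℝ v x‖ ^ 2) + {y | 0 < v y}.indicator (fun _ => 1) x)

/-- `u` minimizes the energy in every ball `B` centred at the origin among the nonnegative locally
Lipschitz functions `v` such that the support of `v - u` is a compact subset of `B`. -/
def Minimizes {d : ℕ} (u : EuclideanSpace ℝ (Fin d) → ℝ) : Prop :=
  ∀ (R : ℝ) (v : EuclideanSpace ℝ (Fin d) → ℝ), LocallyLipschitz v → (∀ x, 0 ≤ v x) →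
    tsupport (fun x => v x - u x) ⊆ Metric.ball 0 R →
    J u (Metric.ball 0 R) ≤ J v (Metric.ball 0 R)

/-- `u` is continuous, nonnegative, one-homogeneous, and smooth up to the free boundary away from
the origin: `w` is smooth on the open set `U`, which contains the closure of `{u > 0}` minus the
origin, and `w = u` on `{u > 0}`. -/
structure Cone {d : ℕ} (u w : EuclideanSpace ℝ (Fin d) → ℝ)
    (U : Set (EuclideanSpace ℝ (Fin d))) : Prop where
  continuous : Continuous u
  nonneg : ∀ x, 0 ≤ u x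
  homogeneous : ∀ r : ℝ, 0 < r → ∀ x, u (r • x) = r * u x
  isOpen : IsOpen U
  closure_subset : closure {x | 0 < u x} \ {0} ⊆ U
  smooth : ContDiffOn ℝ ∞ w U
  eq : ∀ x, 0 < u x → w x = u x

/-- The partial derivative `∂_i f (x)`. -/
noncomputable def pd {d : ℕ} (i : Fin d) (f : EuclideanSpace ℝ (Fin d) → ℝ)
    (x : EuclideanSpace ℝ (Fin d)) : ℝ :=
  fderiv ℝ f x (EuclideanSpace.single i 1)

/-- `u` solves the one-phase free boundary problem: it is harmonic where it is positive, and
`|∇u| = 1` on the free boundary minus the origin. -/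
def Solves {d : ℕ} (u w : EuclideanSpace ℝ (Fin d) → ℝ) : Prop :=
  (∀ x, 0 < u x → ∑ i, pd i (pd i w) x = 0) ∧
    ∀ x ∈ frontier {x | 0 < u x}, x ≠ 0 → ∑ i, pd i w x ^ 2 = 1

/-- The stability inequality
`∫_{∂{u>0}} H φ² ≤ ∫_{u>0} |∇φ|²`, `H = -D²u(∇u, ∇u)` on the free boundary, for all smooth
nonnegative `φ` with compact support not containing the origin.  The left hand side is written, by
the divergence theorem, as the integral of the divergence of `φ² D²u ∇u` over `{u > 0}`. -/
def Stable {d : ℕ} (u w : EuclideanSpace ℝ (Fin d) → ℝ) : Prop :=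
  ∀ φ : EuclideanSpace ℝ (Fin d) → ℝ, ContDiff ℝ ∞ φ → (∀ x, 0 ≤ φ x) → HasCompactSupport φ →
    (0 : EuclideanSpace ℝ (Fin d)) ∉ tsupport φ →
    ∫ x in {x | 0 < u x}, (φ x ^ 2 * (∑ i, ∑ j, pd i (pd j w) x ^ 2) +
        2 * φ x * ∑ i, ∑ j, pd i φ x * pd i (pd j w) x * pd j w x) ≤
      ∫ x in {x | 0 < u x}, ∑ i, pd i φ x ^ 2

/-- `u` is zero or a flat solution `x ↦ (x · e)_+` with `|e| = 1`. -/
def ZeroOrFlat {d : ℕ} (u : EuclideanSpace ℝ (Fin d) → ℝ) : Prop :=
  (∀ x, u x = 0) ∨ ∃ e : EuclideanSpace ℝ (Fin d), ‖e‖ = 1 ∧ ∀ x, u x = max (inner ℝ e x) 0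

/-- In `ℝ^5`, one-homogeneous minimizers which are smooth up to the free boundary away from the
origin are zero or flat; the same holds for one-homogeneous stable solutions. -/
theorem result (u w : EuclideanSpace ℝ (Fin 5) → ℝ)
    (U : Set (EuclideanSpace ℝ (Fin 5))) (hu : Cone u w U) :
    (Minimizes u → ZeroOrFlat u) ∧ (Solves u w → Stable u w → ZeroOrFlat u) := by
  have hres := res_of_cert (k := 4) (by norm_num) K5_good (K5_hyp k5Flat) (by norm_num) (by norm_num)
    (by norm_num)
  refine ⟨fun h => ?_, fun h1 h2 => ?_⟩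
  · exact hres.2 u w U ⟨hu.homogeneous, hu.continuous, hu.nonneg, hu.isOpen, hu.closure_subset,
      hu.smooth, hu.eq⟩ h
  · exact hres.1 u w U ⟨hu.homogeneous, hu.continuous, hu.nonneg, hu.isOpen, hu.closure_subset,
      hu.smooth, hu.eq, h1.1, h1.2⟩ h2

end Vale.Agent.Results.P098.DimFive
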