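import Vale.Agent.Lib.P098.Var.Res
import Vale.Agent.Lib.P098.Cert.Bx5
import Vale.Agent.Lib.P098D3.Ext
import Vale.Agent.Lib.P098D3.Flat

/-!
# P098: one-homogeneous solutions of the one-phase problem in dimension five

For a continuous nonnegative one-homogeneous function on `ℝ^5` which is smooth up to the free
boundary away from the origin, the following are equivalent: it is a minimizer, it is a stable
solution, it is zero or flat.
-/

open MeasureTheory Set Filter Topology
open scoped ContDiff ENNReal Gradient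

open Laplacian

open Vale.Agent.P098 (k5Flat K5_hyp K5_good res_of_cert)

namespace Vale.Agent.Results.P098.FiveTFAE

/-- The space `ℝ^5`. -/
abbrev E := EuclideanSpace ℝ (Fin 5)

/-- The one-phase energy `J(v; B) = ∫_B |∇v|² dx + |{v > 0} ∩ B|`. -/
noncomputable def J (v : E → ℝ) (B : Set E) : ℝ≥0∞ :=
  (∫⁻ x in B, ‖∇ v x‖ₑ ^ 2) + volume (B ∩ {x | 0 < v x})

/-- `u` minimizes `J` in every ball among the nonnegative locally Lipschitz `v` such that the
support of `v - u` is a compact subset of the (open) ball. -/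
def Minimizer (u : E → ℝ) : Prop :=
  ∀ (c : E) (R : ℝ) (v : E → ℝ), LocallyLipschitz v → (∀ x, 0 ≤ v x) →
    tsupport (fun x => v x - u x) ⊆ Metric.ball c R →
      J u (Metric.ball c R) ≤ J v (Metric.ball c R)

/-- The function `|∇u|² / 2`. -/
noncomputable def halfGradSq (u : E → ℝ) (x : E) : ℝ := ‖∇ u x‖ ^ 2 / 2

/-- `u` is a stable solution: `Δu = 0` in `{u > 0}`; `|∇u| = 1` on the free boundary `∂{u > 0}`
away from the origin, as a limit from inside; and `∫_{∂{u>0}} H φ² ≤ ∫_{u>0} |∇φ|²` for all smooth
nonnegative `φ` with compact support not containing the origin.  Here `H = -D²u(∇u, ∇u)` is the mean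
curvature of the free boundary and the left-hand side is written, by the divergence theorem,
as `∫_{u>0} div (φ² ∇(|∇u|²/2))`. -/
structure StableSolution (u : E → ℝ) : Prop where
  harmonic : ∀ x, 0 < u x → Δ u x = 0
  free_boundary : ∀ x ∈ frontier {y | 0 < u y}, x ≠ 0 →
    Tendsto (fun y => ‖∇ u y‖) (𝓝[{y | 0 < u y}] x) (𝓝 1)
  stable : ∀ φ : E → ℝ, ContDiff ℝ ∞ φ → (∀ x, 0 ≤ φ x) → HasCompactSupport φ →
    (0 : E) ∉ tsupport φ →
    ∫ x in {x | 0 < u x}, (φ x ^ 2 * Δ (halfGradSq u) x +
        2 * φ x * inner ℝ (∇ φ x) (∇ (halfGradSq u) x)) ≤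
      ∫ x in {x | 0 < u x}, ‖∇ φ x‖ ^ 2

/-- Let `u : ℝ^5 → ℝ` be continuous, nonnegative, one-homogeneous, and smooth up to the free
boundary away from the origin (near each `x ≠ 0` it coincides on `{u > 0}` with a smooth function
`w`).  Then `u` is a minimizer iff it is a stable solution iff it is zero or flat. -/
theorem result (u : E → ℝ) (hc : Continuous u) (hn : ∀ x, 0 ≤ u x)
    (hh : ∀ r : ℝ, 0 < r → ∀ x, u (r • x) = r * u x)
    (hs : ∀ x : E, x ≠ 0 → ∃ w : E → ℝ, ContDiff ℝ ∞ w ∧ ∀ᶠ y in 𝓝 x, 0 < u y → u y = w y) :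
    List.TFAE [Minimizer u, StableSolution u,
      (∀ x, u x = 0) ∨ ∃ e : E, ‖e‖ = 1 ∧ ∀ x, u x = max (inner ℝ e x) 0] := by
  have hres := res_of_cert (k := 4) (by norm_num) K5_good (K5_hyp k5Flat) (by norm_num)
    (by norm_num) (by norm_num)
  obtain ⟨w, hw⟩ := P098D3.exists_ext hc hn hh hs
  tfae_have 1 → 3 := by
    intro hm
    refine hres.2 u w _ hw fun R v hv hv0 hsv => ?_
    have h1 := hm 0 R v hv hv0 hsv
    unfold J at h1
    rw [P098D3.energy_eq' hc Metric.isOpen_ball.measurableSet,
      P098D3.energy_eq' hv.continuous Metric.isOpen_ball.measurableSet] at h1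
    exact h1
  tfae_have 2 → 3 := by
    intro hst
    have h1 := P098D3.smoothCone_of hw hst.harmonic hst.free_boundary
    exact hres.1 u w _ h1 (P098D3.stab_of h1 hst.stable)
  tfae_have 3 → 1 := by
    rintro (h0 | ⟨e, he, hu⟩) c R v hv hv0 hsv
    · have hu0 : u = fun _ => 0 := funext h0
      have h1 : J u (Metric.ball c R) = 0 := by
        unfold J
        rw [hu0]
        simp [gradient]
      rw [h1]
      exact zero_le
    · unfold J
      rw [P098D3.energy_eq' hc Metric.isOpen_ball.measurableSet,
        P098D3.energy_eq' hv.continuous Metric.isOpen_ball.measurableSet]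
      exact P098D3.flat_min he hu hv hv0 hsv
  tfae_have 3 → 2 := by
    rintro (h0 | ⟨e, he, hu⟩)
    · have hemp : {y : E | 0 < u y} = ∅ := by
        ext y
        constructor
        · intro (hy : 0 < u y)
          rw [h0] at hy
          exact absurd hy (lt_irrefl _)
        · intro hy
          exact absurd hy (notMem_empty _)
      refine ⟨fun x hx => ?_, fun x hx _ => ?_, fun φ _ _ _ _ => ?_⟩
      · rw [h0] at hx
        exact absurd hx (lt_irrefl _)
      · rw [hemp, frontier_empty] at hx
        exact absurd hx (notMem_empty _)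
      · rw [hemp]
        simp
    · refine ⟨fun x hx => P098D3.flat_laplacian hu hx, fun x _ _ => P098D3.flat_fb he hu,
        fun φ _ _ _ _ => ?_⟩
      have hm : MeasurableSet {x : E | 0 < u x} := (isOpen_lt continuous_const hc).measurableSet
      have h1 : ∫ x in {x | 0 < u x}, (φ x ^ 2 * Δ (halfGradSq u) x +
          2 * φ x * inner ℝ (∇ φ x) (∇ (halfGradSq u) x)) = 0 := by
        rw [setIntegral_congr_fun hm (g := fun _ => (0 : ℝ)) fun x hx => ?_, integral_zero]
        have e1 : Δ (halfGradSq u) x = 0 := P098D3.flat_hg_laplacian hu hx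
        have e2 : ∇ (halfGradSq u) x = 0 := P098D3.flat_hg_gradient hu hx
        beta_reduce
        rw [e1, e2, inner_zero_right, mul_zero, mul_zero, add_zero]
      rw [h1]
      exact integral_nonneg fun x => by positivity
  tfae_finish

end Vale.Agent.Results.P098.FiveTFAE
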